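import Vale.Agent.P070.Club.Assemble

namespace Vale.Agent.Results.P070.NaimarkZFC

open Vale.Agent.P070

/-- Naimark's problem: in ZFC there is a C*-algebra with property (N) which is not elementary. -/
theorem result : ∃ (A : Type) (_ : CStarAlgebra A),
    PropertyN A ∧ ¬ IsElementary A ∧ ¬ FiniteDimensional ℂ A :=
  Club.naimark

end Vale.Agent.Results.P070.NaimarkZFC
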