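import Vale.Agent.P070.Main

/-!
Naimark's question has a positive answer for algebras with a regular masa, and for algebras having
a diagonal set of self-adjoint elements with eigenspaces of density below the continuum.
-/

universe u

namespace Vale.Agent.Results.P070.RegularMasa

open Vale.Agent.P070

theorem result :
    ∀ (A : Type u) [NonUnitalCStarAlgebra A],
      (∃ C : NonUnitalStarSubalgebra ℂ A, IsRegularMasa C) ∨ HasDiagonalSmall A →
        PropertyN A → IsElementary A := by
  intro A _ h hN
  rcases h with ⟨C, hC⟩ | h
  · exact isElementary_of_regularMasa hN C hC
  · exact isElementary_of_diagonalSmall hN h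

end Vale.Agent.Results.P070.RegularMasa
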